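import Vale.Agent.P011.H777.SALev

/-!
Two abstract lemmas: the normal hull of a normal subgroup for a filter of levels, and the normal
core of the local closure of a subgroup which is normal in a smaller group only.
-/

open Topology Filter

namespace Vale.Agent.P011N.A2

open Vale.Agent.P011.H777

section hull

variable {G : Type*} [Group G]

/-- A normal subgroup of finite index in a neighbourhood of one has finite index in a normal
neighbourhood of one. -/
theorem exists_hull (F : Filter G) (hF : ∀ g : G, ∀ L ∈ F, {x | g * x * g⁻¹ ∈ L} ∈ F)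
    (N Γ : Subgroup G) [N.Normal] (hΓ : (Γ : Set G) ∈ F) (hi : N.relIndex Γ ≠ 0) :
    ∃ M : Subgroup G, M.Normal ∧ N ≤ M ∧ (M : Set G) ∈ F ∧ N.relIndex M ≠ 0 := by
  classical
  have hex : ∃ m : ℕ, ∃ S : Subgroup G, N ≤ S ∧ (S : Set G) ∈ F ∧ m ≠ 0 ∧ N.relIndex S = m := by
    refine ⟨N.relIndex Γ, N ⊔ Γ, le_sup_left, mem_of_superset hΓ
      (SetLike.coe_subset_coe.mpr le_sup_right), hi, ?_⟩
    rw [Subgroup.relIndex_sup_left]
  obtain ⟨S, hNS, hSF, hm, hSm⟩ := Nat.find_spec hex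
  refine ⟨S, ⟨fun x hx g => ?_⟩, hNS, hSF, by rwa [hSm]⟩
  let S' : Subgroup G := S ⊓ S.comap (MulAut.conj g).toMonoidHom
  have hNS' : N ≤ S' := fun y hy =>
    ⟨hNS hy, hNS (Subgroup.Normal.conj_mem inferInstance y hy g)⟩
  have hS'F : (S' : Set G) ∈ F := inter_mem hSF (hF g _ hSF)
  have hmul := Subgroup.relIndex_mul_relIndex N S' S hNS' inf_le_left
  have h0 : N.relIndex S' ≠ 0 := by
    intro h
    rw [h, zero_mul, hSm] at hmul
    exact hm hmul.symm
  have hle : Nat.find hex ≤ N.relIndex S' := Nat.find_min' hex ⟨S', hNS', hS'F, h0, rfl⟩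
  have h1 : S'.relIndex S = 1 := by
    rw [hSm] at hmul
    have h2 : S'.relIndex S ≠ 0 := by
      intro h
      rw [h, mul_zero] at hmul
      exact hm hmul.symm
    by_contra hne
    have h3 : 2 ≤ S'.relIndex S := by omega
    have h4 : N.relIndex S' * 2 ≤ N.relIndex S' * S'.relIndex S := Nat.mul_le_mul_left _ h3
    omega
  exact (Subgroup.relIndex_eq_one.mp h1 hx).2

/-- A subgroup which contains the quotients of the elements of the same class, for finitely many
classes, has finite index. -/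
theorem index_ne_zero_of_class {κ : Type*} [Finite κ] (cl : G → κ) (M : Subgroup G)
    (h : ∀ x y, cl x = cl y → x⁻¹ * y ∈ M) : M.index ≠ 0 := by
  classical
  have hfin : Finite (G ⧸ M) := by
    let s : κ → G ⧸ M := fun c => if h : ∃ x, cl x = c then (h.choose : G ⧸ M) else ((1 : G) : G ⧸ M)
    refine Finite.of_surjective s fun y => ?_
    obtain ⟨y, rfl⟩ := QuotientGroup.mk_surjective y
    have hy : ∃ x, cl x = cl y := ⟨y, rfl⟩
    refine ⟨cl y, ?_⟩
    change (if h : ∃ x, cl x = cl y then (h.choose : G ⧸ M) else ((1 : G) : G ⧸ M)) = _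
    rw [dif_pos hy, QuotientGroup.eq]
    exact h _ _ hy.choose_spec
  exact Subgroup.index_ne_zero_of_finite

end hull

section core

variable {U E : Type*} [Group U] [TopologicalSpace U] [IsTopologicalGroup U]
  [Group E] [TopologicalSpace E] [IsTopologicalGroup E]

theorem conj_loc {ι : U →* E} {M : Subgroup U} {γ : U} (hγ : ∀ x ∈ M, γ * x * γ⁻¹ ∈ M) {b : E}
    (hb : b ∈ locClosure ι M) : ι γ * b * (ι γ)⁻¹ ∈ locClosure ι M := by
  rw [mem_locClosure] at hb ⊢
  intro O hO W hW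
  have h1 : (fun x : E => ι γ * x * (ι γ)⁻¹) ⁻¹' O ∈ 𝓝 b :=
    (by fun_prop : Continuous fun x : E => ι γ * x * (ι γ)⁻¹).continuousAt hO
  have h2 : (fun x : U => γ * x * γ⁻¹) ⁻¹' W ∈ 𝓝 (1 : U) := by
    apply (by fun_prop : Continuous fun x : U => γ * x * γ⁻¹).continuousAt
    simpa using hW
  obtain ⟨ν, hν, h3, h4⟩ := hb _ h1 _ h2
  exact ⟨γ * ν * γ⁻¹, hγ ν hν, h3, by simpa using h4⟩

/-- Uniform conjugation by the elements of a compact set. -/
theorem conj_nhds {K : Set E} (hK : IsCompact K) {O : Set E} (hO : O ∈ 𝓝 (1 : E)) :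
    {y : E | ∀ c ∈ K, c * y * c⁻¹ ∈ O} ∈ 𝓝 (1 : E) := by
  refine hK.eventually_forall_of_forall_eventually (P := fun y c => c * y * c⁻¹ ∈ O) fun c _ => ?_
  have hc : Continuous fun p : E × E => p.2 * p.1 * p.2⁻¹ := by fun_prop
  refine hc.continuousAt.preimage_mem_nhds ?_
  simpa using hO

/-- The normal core of the local closure contains the elements of `G` close to one. -/
theorem core_loc (ι : U →* E) (hd : DenseRange ι) (G M : Subgroup U) [G.Normal]
    (hG : ∀ x ∈ G, ι x ∈ locClosure ι G) {O₀ : Set E} (hO₀ : O₀ ∈ 𝓝 (1 : E)) {W₀ : Set U}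
    (hW₀ : W₀ ∈ 𝓝 (1 : U)) (hM : ∀ x ∈ G, x ∈ W₀ → ι x ∈ O₀ → x ∈ M) {K : Set E}
    (hK : IsCompact K)
    (hdec : ∀ u : U, ∃ s c : U, (∀ x ∈ M, s * x * s⁻¹ ∈ M) ∧ ι c ∈ K ∧ u = s * c) :
    ∃ O ∈ 𝓝 (1 : E), ∀ x ∈ G, ι x ∈ O → ι x ∈ (locClosure ι M).normalCore := by
  have h1 : ∀ x ∈ G, ι x ∈ interior O₀ → ι x ∈ locClosure ι M := by
    intro x hx hxO
    rw [mem_locClosure]
    intro O hO W hW
    obtain ⟨ν, hν, h2, h3⟩ := mem_locClosure.mp (hG x hx) _
      (inter_mem hO (isOpen_interior.mem_nhds hxO)) _ (inter_mem hW hW₀)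
    exact ⟨ν, hM ν hν h2.2 (interior_subset h3.2), h2.1, h3.1⟩
  refine ⟨_, conj_nhds hK (interior_mem_nhds.mpr hO₀), fun x hx hxO e => ?_⟩
  have hcl : IsClosed {e : E | e * ι x * e⁻¹ ∈ locClosure ι M} :=
    (isClosed_locClosure ι M).preimage (by fun_prop)
  have h2 : closure (Set.range ι) ⊆ {e : E | e * ι x * e⁻¹ ∈ locClosure ι M} := by
    refine closure_minimal ?_ hcl
    rintro _ ⟨u, rfl⟩
    obtain ⟨s, c, hs, hc, rfl⟩ := hdec u
    have h3 : ι (c * x * c⁻¹) ∈ locClosure ι M := by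
      refine h1 _ (Subgroup.Normal.conj_mem inferInstance x hx c) ?_
      rw [map_mul, map_mul, map_inv]
      exact hxO _ hc
    have h4 := conj_loc hs h3
    have e1 : ι (s * c) * ι x * (ι (s * c))⁻¹ = ι s * ι (c * x * c⁻¹) * (ι s)⁻¹ := by
      simp only [map_mul, map_inv]
      group
    rw [Set.mem_ofPred_eq, e1]
    exact h4
  exact h2 (hd e)

end core

end Vale.Agent.P011N.A2
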