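import Vale.Agent.P011.H698.FG
import Vale.Agent.P011.H271.QuadF
import Vale.Agent.P011.H738.Prosolv2

/-!
The centre: elements of norm one are bounded at finitely many places up to powers; the determinant
of the left multiplication is bounded in terms of the coordinates.
-/

open Module Matrix Topology Filter

set_option linter.unusedSectionVars false

namespace Vale.Agent.P011N.A2

open Vale.Agent.P011 Vale.Agent.P011.H738 Vale.Agent.P011.H271 Vale.Agent.P011.H698

/-- A subgroup of a finite dimensional real vector space is bounded modulo its multiples. -/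
theorem exists_near_multiple {ι : Type*} [Fintype ι] (Λ : AddSubgroup (ι → ℝ)) {m : ℕ}
    (hm : m ≠ 0) : ∃ R : ℝ, ∀ y ∈ Λ, ∃ z ∈ Λ, ‖y + m • z‖ ≤ R := by
  classical
  have hfg : (Submodule.span ℝ (Λ : Set (ι → ℝ))).FG := IsNoetherian.noetherian _
  obtain ⟨s, hs, hspan⟩ := (Submodule.fg_span_iff_fg_span_finset_subset _).mp hfg
  have hm0 : (0 : ℝ) < m := Nat.cast_pos.mpr (Nat.pos_of_ne_zero hm)
  refine ⟨∑ b ∈ s, m * ‖b‖, fun y hy => ?_⟩
  have h1 : y ∈ Submodule.span ℝ (s : Set (ι → ℝ)) := by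
    rw [← hspan]
    exact Submodule.subset_span hy
  obtain ⟨t, -, ht⟩ := Submodule.mem_span_finset.mp h1
  refine ⟨-∑ b ∈ s, ⌊t b / m⌋ • b, Λ.neg_mem (Λ.sum_mem fun b hb => Λ.zsmul_mem (hs hb) _), ?_⟩
  have e : y + m • (-∑ b ∈ s, ⌊t b / m⌋ • b) = ∑ b ∈ s, (m * Int.fract (t b / m)) • b := by
    rw [← ht, smul_neg, Finset.smul_sum, ← sub_eq_add_neg, ← Finset.sum_sub_distrib]
    refine Finset.sum_congr rfl fun b _ => ?_
    rw [← Int.cast_smul_eq_zsmul ℝ, ← Nat.cast_smul_eq_nsmul ℝ, smul_smul, ← sub_smul]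
    congr 1
    rw [Int.fract, mul_sub, mul_div_cancel₀ _ hm0.ne']
  rw [e]
  refine (norm_sum_le _ _).trans (Finset.sum_le_sum fun b _ => ?_)
  rw [norm_smul, Real.norm_of_nonneg (mul_nonneg hm0.le (Int.fract_nonneg _))]
  refine mul_le_mul_of_nonneg_right ?_ (norm_nonneg _)
  exact mul_le_of_le_one_right hm0.le (Int.fract_lt_one _).le

section centre

variable {k K : Type} [Field k] [GFF k] [Field K] [StarRing K] [Algebra k K]

/-- An absolute value of the centre above a place, which controls the coordinates. -/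
theorem exists_abv (hfix : ∀ x : K, star x = x ↔ x ∈ Set.range (algebraMap k K))
    (hne : ∃ x : K, star x ≠ x) {M : ℕ} (BK : Basis (Fin M) k K) (v : Place k) :
    ∃ (a : K →*₀ ℝ) (C : ℝ), 0 ≤ C ∧ (∀ x, 0 ≤ a x) ∧
      ∀ x, Bd BK v (C * (a x + a (star x))) x := by
  have key : ∀ (L : Type) [NontriviallyNormedField L] [IsUltrametricDist L] (φ : K →+* L),
      (∀ c : k, ‖φ (algebraMap k K c)‖ = v.abv c) →
      ∃ (a : K →*₀ ℝ) (C : ℝ), 0 ≤ C ∧ (∀ x, 0 ≤ a x) ∧
        ∀ x, Bd BK v (C * (a x + a (star x))) x := by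
    intro L _ _ φ hφ
    let _ : Algebra k L := (φ.comp (algebraMap k K)).toAlgebra
    let ψ : K →ₐ[k] L := { φ with commutes' := fun _ => rfl }
    choose C hC0 hC using fun i : Fin M => exists_functional_le hfix hne ψ (BK.coord i)
    refine ⟨normHom.comp φ.toMonoidWithZeroHom, ∑ i, C i, Finset.sum_nonneg fun i _ => hC0 i,
      fun x => norm_nonneg (φ x), fun x i => ?_⟩
    have h1 := hC i x
    have h2 : ‖algebraMap k L (BK.coord i x)‖ = v.abv (BK.repr x i) := hφ _
    rw [h2] at h1
    refine h1.trans (mul_le_mul_of_nonneg_right ?_ (add_nonneg (norm_nonneg _) (norm_nonneg _)))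
    exact Finset.single_le_sum (fun i _ => hC0 i) (Finset.mem_univ i)
  by_cases hs : Nonempty (K →ₐ[k] v.comp)
  · obtain ⟨φ⟩ := hs
    exact @key v.comp (nnfPlace v) _ (φ : K →+* v.comp) fun c => by
      change ‖φ (algebraMap k K c)‖ = _
      rw [φ.commutes, norm_alg]
  · rw [not_nonempty_iff] at hs
    obtain ⟨L, _, _, _, _, _, φ, -, -, -, h4, h5, -⟩ := exists_quad_field hfix hne v hs
    exact key L φ fun c => by rw [h4, h5, norm_alg]

/-- Elements of norm one are bounded at finitely many places up to powers. -/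
theorem exists_adjust (hfix : ∀ x : K, star x = x ↔ x ∈ Set.range (algebraMap k K))
    (hne : ∃ x : K, star x ≠ x) {M : ℕ} (BK : Basis (Fin M) k K) (T : Finset (Place k)) {m : ℕ}
    (hm : m ≠ 0) : ∃ R : ℝ, 0 ≤ R ∧ ∀ y : K, y * star y = 1 → ∃ ζ : K, ζ * star ζ = 1 ∧
      ∀ v ∈ T, Bd BK v R (ζ ^ m * y) := by
  classical
  choose a C hC0 ha0 hC using fun v : Place k => exists_abv hfix hne BK v
  have hpos : ∀ (v : Place k) (y : K), y * star y = 1 → 0 < a v y := by
    intro v y hy
    refine lt_of_le_of_ne (ha0 v y) fun h => ?_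
    have h1 := congrArg (a v) hy
    rw [map_mul, ← h, zero_mul, map_one] at h1
    exact zero_ne_one h1
  have hstar : ∀ y : K, y * star y = 1 → star y * star (star y) = 1 := by
    intro y hy
    rw [star_star, mul_comm, hy]
  have hmul : ∀ y z : K, y * star y = 1 → z * star z = 1 → (y * z) * star (y * z) = 1 := by
    intro y z hy hz
    rw [star_mul', mul_mul_mul_comm, hy, hz, one_mul]
  have hinv : ∀ (v : Place k) (y : K), y * star y = 1 → a v (star y) = (a v y)⁻¹ := by
    intro v y hy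
    refine eq_inv_of_mul_eq_one_right ?_
    rw [← map_mul, hy, map_one]
  let Λ : AddSubgroup (T → ℝ) :=
    { carrier := {t | ∃ y : K, y * star y = 1 ∧ t = fun v : T => Real.log (a v y)}
      add_mem' := by
        rintro _ _ ⟨y, hy, rfl⟩ ⟨z, hz, rfl⟩
        refine ⟨y * z, hmul y z hy hz, funext fun v => ?_⟩
        rw [Pi.add_apply, map_mul, Real.log_mul (hpos v y hy).ne' (hpos v z hz).ne']
      zero_mem' := ⟨1, by rw [star_one, one_mul], funext fun v => by
        rw [map_one, Real.log_one, Pi.zero_apply]⟩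
      neg_mem' := by
        rintro _ ⟨y, hy, rfl⟩
        refine ⟨star y, hstar y hy, funext fun v => ?_⟩
        rw [Pi.neg_apply, hinv v y hy, Real.log_inv] }
  obtain ⟨R, hR⟩ := exists_near_multiple Λ hm
  refine ⟨(∑ v ∈ T, C v) * (2 * Real.exp R),
    mul_nonneg (Finset.sum_nonneg fun v _ => hC0 v) (by positivity), fun y hy => ?_⟩
  obtain ⟨_, ⟨ζ, hζ, rfl⟩, h1⟩ := hR _ ⟨y, hy, rfl⟩
  refine ⟨ζ, hζ, fun v hv => (hC v _).mono ?_⟩
  have hpow : ζ ^ m * star (ζ ^ m) = 1 := by rw [star_pow, ← mul_pow, hζ, one_pow]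
  have hu := hmul _ _ hpow hy
  have h2 : |Real.log (a v (ζ ^ m * y))| ≤ R := by
    have h3 := (norm_le_pi_norm _ (⟨v, hv⟩ : T)).trans h1
    rw [Pi.add_apply, Pi.smul_apply, Real.norm_eq_abs, nsmul_eq_mul] at h3
    rw [map_mul, map_pow, Real.log_mul (pow_pos (hpos v ζ hζ) m).ne' (hpos v y hy).ne',
      Real.log_pow, add_comm]
    exact h3
  obtain ⟨h3, h4⟩ := abs_le.mp h2
  have h5 : a v (ζ ^ m * y) ≤ Real.exp R := by
    rw [← Real.exp_log (hpos v _ hu)]
    exact Real.exp_le_exp.mpr h4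
  have h6 : a v (star (ζ ^ m * y)) ≤ Real.exp R := by
    rw [hinv v _ hu, ← Real.exp_log (hpos v _ hu), ← Real.exp_neg]
    exact Real.exp_le_exp.mpr (by linarith)
  refine mul_le_mul (Finset.single_le_sum (fun v _ => hC0 v) hv) (by linarith)
    (add_nonneg (ha0 _ _) (ha0 _ _)) (Finset.sum_nonneg fun v _ => hC0 v)

/-- The elements which are bounded at all places are finitely many. -/
theorem finite_bd {V : Type} [AddCommGroup V] [Module k V] {M : ℕ} (BK : Basis (Fin M) k V)
    (c : Place k → ℝ) (hc : {v | 1 < c v}.Finite) : {z : V | ∀ v, Bd BK v (c v) z}.Finite := by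
  have h1 := Set.Finite.pi fun _ : Fin M => place_finite_le c hc
  refine (h1.preimage (f := fun z : V => fun i => BK.repr z i) ?_).subset ?_
  · intro x _ y _ h
    exact BK.repr.injective (Finsupp.ext fun i => congrFun h i)
  · intro z hz i _ v
    exact hz v i

/-- Determinants of bounded matrices over the centre are bounded. -/
theorem det_bd {M : ℕ} (BK : Basis (Fin M) k K) (ι : Type) [Fintype ι] [DecidableEq ι] :
    ∃ C : Place k → ℝ, (∀ v, 1 ≤ C v) ∧ {v | C v ≠ 1}.Finite ∧ ∀ (v : Place k) (c : ℝ)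
      (X : Matrix ι ι K), 0 ≤ c → (∀ i j, Bd BK v c (X i j)) →
      Bd BK v (C v * c ^ Fintype.card ι) X.det := by
  classical
  obtain ⟨C, hC1, hCf, hC⟩ := mul_bd BK
  obtain ⟨D, hD1, hDf, hD⟩ := exists_sup_family BK (fun _ : Unit => (1 : K))
  refine ⟨fun v => D v * C v ^ Fintype.card ι,
    fun v => one_le_mul_of_one_le_of_one_le (hD1 v) (one_le_pow₀ (hC1 v)),
    (hCf.union hDf).subset fun v hv => ?_, fun v c X hc hX => ?_⟩
  · by_contra hcon
    rw [Set.mem_union, Set.mem_ofPred_eq, Set.mem_ofPred_eq, not_or, not_not, not_not] at hcon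
    apply hv
    change D v * C v ^ Fintype.card ι = 1
    rw [hcon.1, hcon.2, one_pow, one_mul]
  · have hC0 : 0 ≤ C v := zero_le_one.trans (hC1 v)
    have hD0 : 0 ≤ D v := zero_le_one.trans (hD1 v)
    have hprod : ∀ (x : ι → K), (∀ i, Bd BK v c (x i)) → ∀ s : Finset ι,
        Bd BK v (D v * C v ^ s.card * c ^ s.card) (∏ i ∈ s, x i) := by
      intro x hx s
      induction s using Finset.induction_on with
      | empty => simpa using hD v ()
      | insert i s hi ih =>
        rw [Finset.prod_insert hi, Finset.card_insert_of_notMem hi]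
        refine (hC v _ _ _ _ hc (by positivity) (hx i) ih).mono (le_of_eq ?_)
        ring
    rw [Matrix.det_apply]
    refine Bd.sum (by positivity) _ fun σ _ => ?_
    have h1 := hprod (fun i => X (σ i) i) (fun i => hX _ _) Finset.univ
    rw [Finset.card_univ] at h1
    rcases Int.units_eq_one_or (Equiv.Perm.sign σ) with h | h
    · rw [h, one_smul]
      exact h1
    · rw [h, Units.neg_smul, one_smul]
      exact h1.neg

end centre

end Vale.Agent.P011N.A2
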