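import Vale.Agent.P011N.A2.Cent
import Vale.Agent.P011.H74.CocF

/-!
The unitary group is the product of its centre, of the special unitary group and of a set which is
bounded at finitely many given places.
-/

open Module Matrix Topology Filter

set_option linter.unusedSectionVars false

namespace Vale.Agent.P011N.A2

open Vale.Agent.P011 Vale.Agent.P011.H738 Vale.Agent.P011.H271 Vale.Agent.P011.H698

variable {k K A Ω : Type} [Field k] [GFF k] [Field K] [StarRing K] [Ring A] [StarRing A]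
  [Algebra k K] [Algebra k A] [Algebra K A] [IsScalarTower k K A] [StarModule K A] {n N : ℕ}
  [Field Ω] [Algebra K Ω]

omit [GFF k] in
/-- The reduced norm. -/
theorem exists_nu (hA : Anis k K A n) (hn : n ≠ 0) (f : A →ₐ[K] Matrix (Fin n) (Fin n) Ω) :
    ∃ ν : A →* K, (∀ x, (f x).det = algebraMap K Ω (ν x)) ∧ (∀ x, ν (star x) = star (ν x)) ∧
      (∀ c : K, ν (algebraMap K A c) = c ^ n) ∧
      ∀ x, LinearMap.det (LinearMap.mulLeft K x) = ν x ^ n := by
  have hcen := hA.central
  have hsim := hA.simple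
  have hfd : FiniteDimensional K A :=
    FiniteDimensional.of_finrank_pos (by rw [hA.finrank_eq]; positivity)
  have hinj := (algebraMap K Ω).injective
  choose ν hν using H268.exists_nrd (Nat.pos_of_ne_zero hn) hA.finrank_eq f
  have hss : ∀ c : K, star (algebraMap K A c) = algebraMap K A (star c) := by
    intro c
    rw [Algebra.algebraMap_eq_smul_one, star_smul, star_one, ← Algebra.algebraMap_eq_smul_one]
  have hf : ∀ c : K, (f : A →+* Matrix (Fin n) (Fin n) Ω) (algebraMap K A c) =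
      algebraMap Ω _ (algebraMap K Ω c) := by
    intro c
    rw [← IsScalarTower.algebraMap_apply]
    exact f.commutes c
  refine ⟨{ toFun := ν
            map_one' := hinj (by rw [← hν, map_one, map_one, det_one])
            map_mul' := fun x y => hinj (by rw [← hν, map_mul, det_mul, hν, hν, map_mul]) },
    hν, fun x => hinj ?_, fun c => hinj ?_, fun x => hinj ?_⟩
  · change algebraMap K Ω (ν (star x)) = algebraMap K Ω (star (ν x))
    rw [← hν]
    exact H268.nrd_star (Nat.pos_of_ne_zero hn) hA.finrank_eq hss f x (hν x)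
  · change algebraMap K Ω (ν (algebraMap K A c)) = _
    rw [← hν, f.commutes, IsScalarTower.algebraMap_apply K Ω, Algebra.algebraMap_eq_smul_one,
      det_smul, det_one, mul_one, Fintype.card_fin, map_pow]
  · change _ = algebraMap K Ω (ν x ^ n)
    rw [map_pow, ← hν]
    exact H74.det_base hA.finrank_eq hn (algebraMap K Ω) (f : A →+* Matrix (Fin n) (Fin n) Ω) hf
      (H519.span_range_eq_top hA.finrank_eq hn (algebraMap K Ω) _ hf) x

/-- The determinant of the left multiplication is bounded in terms of the coordinates. -/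
theorem norm_bd [FiniteDimensional K A] (B : Basis (Fin N) k A) {M : ℕ}
    (BK : Basis (Fin M) k K) :
    ∃ C : Place k → ℝ, (∀ v, 1 ≤ C v) ∧ {v | C v ≠ 1}.Finite ∧ ∀ (v : Place k) (c : ℝ) (x : A),
      0 ≤ c → Bd B v c x →
      Bd BK v (C v * c ^ finrank K A) (LinearMap.det (LinearMap.mulLeft K x)) := by
  classical
  let e := Module.finBasis K A
  let L : Fin (finrank K A) × Fin (finrank K A) → A →ₗ[k] K := fun p =>
    { toFun := fun x => e.repr (x * e p.2) p.1
      map_add' := fun x y => by rw [add_mul, map_add, Finsupp.add_apply]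
      map_smul' := fun c x => by
        rw [smul_mul_assoc, ← algebraMap_smul K c (x * e p.2), map_smul, Finsupp.smul_apply,
          RingHom.id_apply, smul_eq_mul, Algebra.smul_def] }
  choose C hC1 hCf hC using fun p => lin_bd B BK (L p)
  obtain ⟨D, hD1, hDf, hD⟩ := det_bd BK (Fin (finrank K A))
  have hP1 : ∀ v, 1 ≤ ∏ p, C p v := fun v => Finset.one_le_prod fun p _ => hC1 p v
  have hPle : ∀ v p, C p v ≤ ∏ p, C p v := by
    intro v p
    rw [← Finset.mul_prod_erase Finset.univ _ (Finset.mem_univ p)]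
    exact le_mul_of_one_le_right (zero_le_one.trans (hC1 p v))
      (Finset.one_le_prod fun p _ => hC1 p v)
  refine ⟨fun v => D v * (∏ p, C p v) ^ finrank K A,
    fun v => one_le_mul_of_one_le_of_one_le (hD1 v) (one_le_pow₀ (hP1 v)),
    (hDf.union (Set.finite_iUnion hCf)).subset fun v hv => ?_, fun v c x hc hx => ?_⟩
  · by_contra hcon
    rw [Set.mem_union, Set.mem_ofPred_eq, not_or, not_not, Set.mem_iUnion, not_exists] at hcon
    apply hv
    have h1 : ∏ p, C p v = 1 := Finset.prod_eq_one fun p _ => not_not.mp (hcon.2 p)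
    change D v * (∏ p, C p v) ^ finrank K A = 1
    rw [hcon.1, h1, one_pow, one_mul]
  · rw [← LinearMap.det_toMatrix e]
    have h1 := hD v ((∏ p, C p v) * c) (LinearMap.toMatrix e e (LinearMap.mulLeft K x))
      (mul_nonneg (zero_le_one.trans (hP1 v)) hc) (fun i j => by
        rw [LinearMap.toMatrix_apply, LinearMap.mulLeft_apply]
        exact (hC (i, j) v c x hc hx).mono (mul_le_mul_of_nonneg_right (hPle v _) hc))
    rw [Fintype.card_fin, mul_pow, ← mul_assoc] at h1
    exact h1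

omit [GFF k] [Field k] [Algebra k K] [Algebra k A] [IsScalarTower k K A] in
/-- A scalar of norm one is a central unitary element. -/
theorem exists_central_unit {ζ : K} (hζ : ζ * star ζ = 1) :
    ∃ z : UA A, ((z : Aˣ) : A) = algebraMap K A ζ := by
  have hss : star (algebraMap K A ζ) = algebraMap K A (star ζ) := by
    rw [Algebra.algebraMap_eq_smul_one, star_smul, star_one, ← Algebra.algebraMap_eq_smul_one]
  have h1 : algebraMap K A ζ * star (algebraMap K A ζ) = 1 := by
    rw [hss, ← map_mul, hζ, map_one]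
  have h2 : star (algebraMap K A ζ) * algebraMap K A ζ = 1 := by
    rw [hss, ← map_mul, mul_comm, hζ, map_one]
  exact ⟨⟨⟨_, _, h1, h2⟩, h1⟩, rfl⟩

/-- **The decomposition of the unitary group.** -/
theorem exists_dec (hA : Anis k K A n) (hn : n ≠ 0) (f : A →ₐ[K] Matrix (Fin n) (Fin n) Ω)
    (B : Basis (Fin N) k A) (T : Finset (Place k)) :
    ∃ R : ℝ, ∀ u : UA A, ∃ z γ c : UA A, (∀ x : UA A, z * x * z⁻¹ = x) ∧ γ ∈ GA f ∧
      (∀ v ∈ T, Bd B v R ((c : Aˣ) : A)) ∧ u = z * γ * c := by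
  classical
  rcases T.eq_empty_or_nonempty with rfl | hT
  · exact ⟨0, fun u => ⟨1, 1, u, fun x => by group, (GA f).one_mem, by simp, by group⟩⟩
  have hsim := hA.simple
  have hfd : FiniteDimensional K A :=
    FiniteDimensional.of_finrank_pos (by rw [hA.finrank_eq]; positivity)
  have hst := H519.star_smul_of_anis hA
  obtain ⟨hfdK, -, -⟩ := H519.quad hA.fixed hA.star_ne
  let BK := Module.finBasis k K
  obtain ⟨ν, hν, hνs, hνc, hνd⟩ := exists_nu hA hn f
  obtain ⟨C, hC1, hCf, hC⟩ := norm_bd (K := K) B BK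
  obtain ⟨CK, hCK1, -, hCK⟩ := mul_bd BK
  obtain ⟨CA, hCA1, -, hCA⟩ := mul_bd B
  obtain ⟨R1, hR10, hR1⟩ := exists_adjust hA.fixed hA.star_ne BK T (mul_ne_zero hn hn)
  obtain ⟨Mw, hMfin, hMone, hcoc⟩ := H74.coc_SF (B := B) hst hA.anisotropic
  obtain ⟨R0, hR0⟩ := hcoc T hT
  -- the finite set of values
  let b : Place k → ℝ := fun v => if v ∈ T then CK v * (C v * |R0| ^ finrank K A) * R1
    else C v * Mw v ^ finrank K A
  have hb : {v | 1 < b v}.Finite := by
    refine ((T.finite_toSet.union hCf).union hMfin).subset fun v hv => ?_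
    by_contra hcon
    rw [Set.mem_union, Set.mem_union, not_or, not_or, Set.mem_ofPred_eq, Set.mem_ofPred_eq,
      not_not, not_not, Finset.mem_coe] at hcon
    have h1 : b v = 1 := by
      change (if v ∈ T then _ else _) = _
      rw [if_neg hcon.1.1, hcon.1.2, hcon.2, one_pow, one_mul]
    rw [Set.mem_ofPred_eq, h1] at hv
    exact lt_irrefl _ hv
  have hΦ := finite_bd BK b hb
  have hF : {t : K | ∀ v, Bd BK v (b v) (t ^ n)}.Finite := by
    refine (hΦ.biUnion (t := fun z => {t : K | t ^ n = z}) fun z _ => ?_).subset ?_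
    · have h1 : {t : K | t ^ n = z} ⊆ ((Polynomial.nthRoots n z).toFinset : Set K) := by
        intro t ht
        rw [Finset.mem_coe, Multiset.mem_toFinset, Polynomial.mem_nthRoots (Nat.pos_of_ne_zero hn)]
        exact ht
      exact (Finset.finite_toSet _).subset h1
    · intro t ht
      exact Set.mem_biUnion (x := t ^ n) ht rfl
  -- representatives
  let s : K → UA A := fun t => if h : ∃ u : UA A, ν ((u : Aˣ) : A) = t then h.choose else 1
  have hs : ∀ u : UA A, ν ((s (ν ((u : Aˣ) : A)) : Aˣ) : A) = ν ((u : Aˣ) : A) := by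
    intro u
    have h : ∃ w : UA A, ν ((w : Aˣ) : A) = ν ((u : Aˣ) : A) := ⟨u, rfl⟩
    have h1 : s (ν ((u : Aˣ) : A)) = h.choose := dif_pos h
    rw [h1]
    exact h.choose_spec
  have hFin : Finite {t : K | ∀ v, Bd BK v (b v) (t ^ n)} := hF
  obtain ⟨D, hD1, -, hD⟩ := exists_sup_family B
    (fun t : {t : K | ∀ v, Bd BK v (b v) (t ^ n)} => ((((s t)⁻¹ : UA A) : Aˣ) : A))
  refine ⟨∑ v ∈ T, CA v * D v * |R0|, fun u => ?_⟩
  have hy : ν (star ((u : Aˣ) : A)) ^ n * star (ν (star ((u : Aˣ) : A)) ^ n) = 1 := by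
    rw [star_pow, ← mul_pow, ← hνs, star_star, ← map_mul, ua_star_mul, map_one, one_pow]
  obtain ⟨ζ, hζ, hζb⟩ := hR1 _ hy
  obtain ⟨z, hz⟩ := exists_central_unit (A := A) hζ
  have hzc : ∀ x : UA A, z * x = x * z := by
    intro x
    apply Subtype.ext
    apply Units.ext
    change ((z : Aˣ) : A) * ((x : Aˣ) : A) = ((x : Aˣ) : A) * ((z : Aˣ) : A)
    rw [hz, Algebra.commutes]
  let w : UA A := z * u⁻¹
  obtain ⟨lam, hl1, hl2, hl3, hl4⟩ := hR0 (fun _ => ((w : Aˣ) : A)) (fun _ => ua_star_mul w)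
    (fun _ => ua_mul_star w)
  let γ : UA A := ⟨⟨lam, star lam, hl2, hl1⟩, hl2⟩
  have hc0 : ∀ v ∈ T, Bd B v |R0| (((γ * w⁻¹ : UA A) : Aˣ) : A) := by
    intro v hv i
    have h1 := hl4 ⟨v, hv⟩ i
    rw [← ua_inv] at h1
    exact h1.trans (le_abs_self R0)
  have hw : ν ((w : Aˣ) : A) ^ n = ζ ^ (n * n) * ν (star ((u : Aˣ) : A)) ^ n := by
    change ν (((z : Aˣ) : A) * (((u⁻¹ : UA A) : Aˣ) : A)) ^ n = _
    rw [map_mul, hz, hνc, ua_inv, mul_pow, ← pow_mul]
  have hγ : ∀ v, Bd BK v (b v) (ν ((γ : Aˣ) : A) ^ n) := by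
    intro v
    by_cases hv : v ∈ T
    · have e1 : b v = CK v * (C v * |R0| ^ finrank K A) * R1 := if_pos hv
      have e2 : ((γ : Aˣ) : A) = (((γ * w⁻¹ : UA A) : Aˣ) : A) * ((w : Aˣ) : A) := by
        change _ = (((γ * w⁻¹ * w : UA A) : Aˣ) : A)
        rw [inv_mul_cancel_right]
      rw [e1, e2, map_mul, mul_pow, hw, ← hνd]
      have hC0 : 0 ≤ C v := zero_le_one.trans (hC1 v)
      exact hCK v _ _ _ _ (by positivity) hR10 (hC v _ _ (abs_nonneg _) (hc0 v hv)) (hζb v hv)
    · have e1 : b v = C v * Mw v ^ finrank K A := if_neg hv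
      rw [e1, ← hνd]
      exact hC v _ _ (zero_le_one.trans (hMone v)) (hl3 v hv)
  let t : {t : K | ∀ v, Bd BK v (b v) (t ^ n)} := ⟨ν ((γ : Aˣ) : A), hγ⟩
  refine ⟨z, γ⁻¹ * s t, (s t)⁻¹ * (γ * w⁻¹), fun x => by rw [hzc, mul_inv_cancel_right], ?_,
    fun v hv => ?_, ?_⟩
  · rw [mem_GA, hν]
    have h1 : ν (((γ⁻¹ * s t : UA A) : Aˣ) : A) = 1 := by
      change ν ((((γ⁻¹ : UA A) : Aˣ) : A) * ((s t : Aˣ) : A)) = 1
      have h2 : ν ((s t : Aˣ) : A) = ν ((γ : Aˣ) : A) := hs γ
      rw [map_mul, h2, ← map_mul, ua_inv, ua_star_mul, map_one]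
    rw [h1, map_one]
  · have hD0 : 0 ≤ D v := zero_le_one.trans (hD1 v)
    refine (hCA v _ _ _ _ hD0 (abs_nonneg _) (hD v t) (hc0 v hv)).mono ?_
    refine Finset.single_le_sum (f := fun v => CA v * D v * |R0|) (fun v _ => ?_) hv
    exact mul_nonneg (mul_nonneg (zero_le_one.trans (hCA1 v)) (zero_le_one.trans (hD1 v)))
      (abs_nonneg _)
  · have e : z * (γ⁻¹ * s t) * ((s t)⁻¹ * (γ * w⁻¹)) = z * w⁻¹ := by group
    have e2 : w = z * u⁻¹ := rfl
    rw [e, e2, _root_.mul_inv_rev, inv_inv, ← mul_assoc, hzc, mul_inv_cancel_right]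

end Vale.Agent.P011N.A2
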