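import Vale.Agent.P011N.A2.SA
import Vale.Agent.P011.H698.PlusRem
import Vale.Agent.P011.H738.SolvFF
import Vale.Agent.P011.H738.LocDens

/-!
A normal subgroup of the special unitary group which contains a level has finite index.
-/

open Module Matrix Topology Filter

set_option linter.unusedSectionVars false

namespace Vale.Agent.P011N.A2

open Vale.Agent.P011 Vale.Agent.P011.H738 Vale.Agent.P011.H271 Vale.Agent.P011.H698
  Vale.Agent.P011.H961

variable {k K A Ω : Type} [Field k] [GFF k] [Field K] [StarRing K] [Ring A] [StarRing A]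
  [Algebra k K] [Algebra k A] [Algebra K A] [IsScalarTower k K A] [StarModule K A] {n N : ℕ}
  [Field Ω] [Algebra K Ω]

/-- Commutators have norm one. -/
theorem norm_commutator {D : Type} [NormedDivisionRing D] {c : Dˣ} (hc : c ∈ commutator Dˣ) :
    ‖(c : D)‖ = 1 := by
  let a : Dˣ →* ℝˣ := Units.map (normHom : D →*₀ ℝ).toMonoidHom
  have h1 : a c = 1 := Abelianization.commutator_subset_ker a hc
  exact congrArg (fun t : ℝˣ => (t : ℝ)) h1

/-- The special unitary group is bounded at the places of division type. -/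
theorem bd_div (hA : Anis k K A n) (hn : n ≠ 0) (f : A →ₐ[K] Matrix (Fin n) (Fin n) Ω)
    (B : Basis (Fin N) k A) {v : Place k} (hv : v ∈ Adiv k K A) :
    ∃ R : ℝ, 0 ≤ R ∧ ∀ u : GA f, Bd B v R (((u : UA A) : Aˣ) : A) := by
  have hcen := hA.central
  have hfd := hA.finiteDimensional hn
  have hnt := hA.nontrivial
  obtain ⟨φ, hφ⟩ := hv
  let _ := nnfPlace v
  obtain ⟨D, _, _, _, ι, hL⟩ := exists_locDat (F := v.comp) hA.fixed hA.star_ne
    (Nat.pos_of_ne_zero hn) hA.finrank_eq f φ hφ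
  obtain ⟨C, hC, hco⟩ := hL.coord N B
  have h1 : ∀ u : GA f, ‖ι (((u : UA A) : Aˣ) : A)‖ ≤ 2 := by
    intro u
    obtain ⟨c, hc, h2⟩ := hL.comm _ (mem_GA.mp u.2) 1 one_pos
    have h3 := norm_commutator hc
    have h4 := norm_sub_norm_le (ι (((u : UA A) : Aˣ) : A)) (c : D)
    rw [norm_sub_rev] at h4
    linarith
  refine ⟨C * 4, by positivity, fun u i => ?_⟩
  have h2 := hco (((u : UA A) : Aˣ) : A) i
  rw [norm_alg, ← ua_inv] at h2
  refine h2.trans (mul_le_mul_of_nonneg_left ?_ hC.le)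
  have h3 := h1 u
  have h4 : ‖ι ((((u : UA A)⁻¹ : UA A) : Aˣ) : A)‖ ≤ 2 := h1 u⁻¹
  linarith

/-- A subgroup which contains the elements close to one at finitely many places where the group is
bounded has finite index. -/
theorem index_of_near (f : A →ₐ[K] Matrix (Fin n) (Fin n) Ω) (B : Basis (Fin N) k A) (T : Finset (Place k))
    (hT : ∀ v ∈ T, ∃ R : ℝ, 0 ≤ R ∧ ∀ u : GA f, Bd B v R (((u : UA A) : Aˣ) : A)) {ε : ℝ}
    (hε : 0 < ε) (M : Subgroup (GA f))
    (hM : ∀ u : GA f, (∀ v ∈ T, Sm B v ε ((((u : UA A) : Aˣ) : A) - 1)) → u ∈ M) :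
    M.index ≠ 0 := by
  classical
  choose R hR0 hR using fun v : T => hT v v.2
  obtain ⟨C, hC1, -, hC⟩ := mul_bd B
  let δ : T → ℝ := fun v => ε / (C v * R v + 1)
  have hCR : ∀ v : T, 0 < C v * R v + 1 := fun v =>
    add_pos_of_nonneg_of_pos (mul_nonneg (zero_le_one.trans (hC1 v)) (hR0 v)) one_pos
  have hδ : ∀ v, 0 < δ v := fun v => div_pos hε (hCR v)
  choose S hS using fun v : T => ball_reps (v : Place k) (R v) (hδ v)
  choose r hrS hr using fun (u : GA f) (v : T) (i : Fin N) => hS v _ (hR v u i)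
  refine index_ne_zero_of_class
    (fun (u : GA f) (v : T) (i : Fin N) => (⟨r u v i, hrS u v i⟩ : (S v : Set k))) M
    fun x y hxy => hM _ fun v hv => ?_
  have key : Bd B v (δ ⟨v, hv⟩) ((((y : UA A) : Aˣ) : A) - (((x : UA A) : Aˣ) : A)) := by
    intro i
    have h1 : r x ⟨v, hv⟩ i = r y ⟨v, hv⟩ i :=
      congrArg Subtype.val (congrFun (congrFun hxy ⟨v, hv⟩) i)
    have h2 := hr x ⟨v, hv⟩ i
    have h3 := hr y ⟨v, hv⟩ i
    rw [← h1] at h3
    have e : B.repr ((((y : UA A) : Aˣ) : A) - (((x : UA A) : Aˣ) : A)) i =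
        (B.repr (((y : UA A) : Aˣ) : A) i - r x ⟨v, hv⟩ i) +
        -(B.repr (((x : UA A) : Aˣ) : A) i - r x ⟨v, hv⟩ i) := by
      rw [map_sub, Finsupp.sub_apply]
      ring
    rw [e]
    refine (v.nonarch _ _).trans (max_le h3 ?_)
    rw [AbsoluteValue.map_neg]
    exact h2
  have e : ((((x⁻¹ * y : GA f) : UA A) : Aˣ) : A) - 1 = ((((x⁻¹ : GA f) : UA A) : Aˣ) : A) *
      ((((y : UA A) : Aˣ) : A) - (((x : UA A) : Aˣ) : A)) := by
    have h1 : ((((x⁻¹ : GA f) : UA A) : Aˣ) : A) * (((x : UA A) : Aˣ) : A) = 1 := by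
      change ((((x⁻¹ * x : GA f) : UA A) : Aˣ) : A) = 1
      rw [inv_mul_cancel]
      rfl
    rw [mul_sub, h1]
    rfl
  rw [e]
  refine (hC v _ _ _ _ (hR0 ⟨v, hv⟩) (hδ _).le (hR ⟨v, hv⟩ x⁻¹) key).sm ?_
  have h1 := hCR ⟨v, hv⟩
  change C v * R ⟨v, hv⟩ * (ε / (C v * R ⟨v, hv⟩ + 1)) < ε
  rw [mul_div_assoc', div_lt_iff₀ h1]
  nlinarith

/-- **A normal subgroup which contains a level has finite index.** -/
theorem index_of_level (hk : IsGlobalFunctionField k) (hA : Anis k K A n) (hn : 3 ≤ n)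
    {q : Place k} {φ : K →ₐ[k] q.comp} {g : A →+* Matrix (Fin n) (Fin n) q.comp}
    (hφ : ∀ c : K, g (algebraMap K A c) = algebraMap q.comp _ (φ c))
    (hspan : Submodule.span q.comp (Set.range fun x : A => (g x, (g (star x)).transpose)) = ⊤)
    (f : A →ₐ[K] Matrix (Fin n) (Fin n) Ω) (B : Basis (Fin N) k A)
    (M : Subgroup (GA f)) [M.Normal]
    (hM : ((M.map (GA f).subtype : Subgroup (UA A)) : Set (UA A)) ∈ FLv f B {q}) :
    M.index ≠ 0 := by
  classical
  have hn0 : n ≠ 0 := by omega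
  have hst := H519.star_smul_of_anis hA
  obtain ⟨T, ε, hε, hT⟩ := sa_su hk hA hn hφ hspan f B M hM
  obtain ⟨R, hR⟩ := exists_dec hA hn0 f B T
  choose δ hδ hc using fun v : T => conj_near B hst (v : Place k) (R := R) hε
  obtain ⟨η, hη, hηδ⟩ := exists_pos_le δ hδ
  have hle : (M.map (GA f).subtype).normalCore ≤ M.map (GA f).subtype := Subgroup.normalCore_le _
  have hQ : (((M.map (GA f).subtype).normalCore : Subgroup (UA A)) : Set (UA A)) ∈ FNr f B := by
    refine mem_FNr.mpr ⟨T, η, hη, fun u hu hnear e => ?_⟩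
    obtain ⟨z, γ, c, hz, hγ, hcb, rfl⟩ := hR e
    have h1 : c * u * c⁻¹ ∈ GA f := Subgroup.Normal.conj_mem inferInstance u hu c
    have h2 : (⟨c * u * c⁻¹, h1⟩ : GA f) ∈ M := by
      refine hT _ fun v hv => ?_
      have h3 := hc ⟨v, hv⟩ _ _ (ua_mul_star c) (hcb v hv) ((hnear v hv).mono (hηδ ⟨v, hv⟩))
      rw [← ua_inv] at h3
      exact h3
    have e : z * γ * c * u * (z * γ * c)⁻¹ = z * (γ * (c * u * c⁻¹) * γ⁻¹) * z⁻¹ := by group
    rw [e, hz]
    exact ⟨(⟨γ, hγ⟩ : GA f) * ⟨c * u * c⁻¹, h1⟩ * (⟨γ, hγ⟩ : GA f)⁻¹,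
      Subgroup.Normal.conj_mem inferInstance _ h2 _, rfl⟩
  obtain ⟨T', hT', ε', hε', h⟩ := rem_FF_all hk hA hn f B (splitNS hA hn0) _ inferInstance
    (hle.trans (Subgroup.map_subtype_le M)) hQ
  refine index_of_near f B T' (fun v hv => bd_div hA hn0 f B (hT' v hv)) hε' M fun u hu => ?_
  exact (Subgroup.mem_map_iff_mem (GA f).subtype_injective).mp (hle (h u u.2 hu))

end Vale.Agent.P011N.A2
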