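import Vale.Agent.P011N.Iface
import Vale.Agent.P011.H698.SLgen
import Vale.Agent.P011.H710.UnbdGL

/-!
The normal subgroup theorem for lattices in the special linear group over a local field.
-/

open Matrix Topology Filter Matrix.SpecialLinearGroup

namespace Vale.Agent.P011N.A2

open Vale.Agent.P011

/-- The closure of the image of a normal subgroup is normalized by the closure of the range. -/
theorem conj_mem_closure {G E : Type*} [Group G] [Group E] [TopologicalSpace E]
    [IsTopologicalGroup E] (ι : G →* E) (N : Subgroup G) [N.Normal] {e b : E}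
    (he : e ∈ closure (Set.range ι)) (hb : b ∈ (N.map ι).topologicalClosure) :
    e * b * e⁻¹ ∈ (N.map ι).topologicalClosure := by
  have hcl : IsClosed ((N.map ι).topologicalClosure : Set E) :=
    Subgroup.isClosed_topologicalClosure _
  have h1 : ∀ γ : G, ι γ * b * (ι γ)⁻¹ ∈ (N.map ι).topologicalClosure := by
    intro γ
    have h2 : Set.MapsTo (fun b : E => ι γ * b * (ι γ)⁻¹) (N.map ι : Set E) (N.map ι : Set E) := by
      rintro _ ⟨x, hx, rfl⟩
      exact ⟨γ * x * γ⁻¹, Subgroup.Normal.conj_mem inferInstance x hx γ, by simp⟩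
    exact h2.closure (by fun_prop) hb
  have h3 : Set.MapsTo (fun e : E => e * b * e⁻¹) (Set.range ι)
      ((N.map ι).topologicalClosure : Set E) := by
    rintro _ ⟨γ, rfl⟩
    exact h1 γ
  have h4 := h3.closure (by fun_prop) he
  rwa [hcl.closure_eq] at h4

variable {F : Type} [NontriviallyNormedField F] {n : ℕ}

/-- A normal subgroup of the special linear group with a nonscalar element is the whole group. -/
theorem sl_top (hn : 2 ≤ n) (P : Subgroup (SpecialLinearGroup (Fin n) F)) [P.Normal]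
    (h : ∃ x ∈ P, ∀ c : F, (x : Matrix (Fin n) (Fin n) F) ≠ diagonal fun _ => c) : P = ⊤ := by
  obtain ⟨a, ha0, ha4⟩ := H710.exists_pow_ne (L := F)
  rw [eq_top_iff]
  rintro s -
  have h1 : (toGL s : GL (Fin n) F) ∈ P.map toGL := by
    refine H487.Lin.mat_S2_field ha0 ha4 (by rw [Fintype.card_fin]; exact hn) ?_ ?_ _ s.2
    · rintro S hS _ ⟨x, hx, rfl⟩
      obtain ⟨t, rfl⟩ : ∃ t : SpecialLinearGroup (Fin n) F, toGL t = S := ⟨⟨S, hS⟩, Units.ext rfl⟩
      exact ⟨t * x * t⁻¹, Subgroup.Normal.conj_mem inferInstance x hx _, by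
        rw [map_mul, map_mul, map_inv]⟩
    · obtain ⟨x, hx, hxc⟩ := h
      exact ⟨toGL x, ⟨x, hx, rfl⟩, hxc⟩
  exact (Subgroup.mem_map_iff_mem toGL_injective).mp h1

/-- The special linear group has no character. -/
theorem sl_char (hn : 2 ≤ n) (χ : SpecialLinearGroup (Fin n) F →* Multiplicative ℝ)
    (s : SpecialLinearGroup (Fin n) F) : χ s = 1 := by
  obtain ⟨a, ha0, ha4⟩ := H710.exists_pow_ne (L := F)
  let i : Fin n := ⟨0, by omega⟩
  let j : Fin n := ⟨1, by omega⟩
  have hij : i ≠ j := fun h => zero_ne_one (congrArg Fin.val h)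
  have hb : (a⁻¹) ^ 2 - 1 ≠ 0 := by
    intro h
    apply ha4
    have h1 : a ^ 2 = 1 := by
      rw [sub_eq_zero, inv_pow, inv_eq_one] at h
      exact h
    calc a ^ 4 = (a ^ 2) ^ 2 := by ring
      _ = 1 := by rw [h1, one_pow]
  have h1 : χ (transvection hij ((a⁻¹) ^ 2 - 1)) = 1 := by
    have h2 := H748.conj_transvection hij (1 : F) a ha0 1
    rw [pow_one, pow_one, one_mul] at h2
    rw [sub_eq_add_neg, transvection_add, ← h2, ← transvection_inv]
    simp only [map_mul, map_inv]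
    rw [mul_comm (χ (diag2n hij a ha0))⁻¹]
    group
  have h2 : χ.ker = ⊤ := by
    refine sl_top hn χ.ker ⟨_, h1, fun c hc => hb ?_⟩
    have h3 := congrFun (congrFun hc i) j
    rw [transvection_coe, Matrix.add_apply, one_apply_ne hij, single_apply_same, zero_add,
      diagonal_apply_ne _ hij] at h3
    exact h3
  have h3 : s ∈ χ.ker := by
    rw [h2]
    trivial
  exact h3

variable [ProperSpace F]

/-- **The normal subgroup theorem for dense subgroups of the special linear group.** -/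
theorem nst_sl (hNST : NST) (hn : 2 ≤ n) {G : Type} [Group G]
    (ρ : G →* SpecialLinearGroup (Fin n) F) (hρ : Function.Injective ρ) (hd : DenseRange ρ)
    (Γ N : Subgroup G) [N.Normal]
    (hnc : ∃ x ∈ N, ∀ c : F, (ρ x : Matrix (Fin n) (Fin n) F) ≠ diagonal fun _ => c)
    (hdisc : ∀ D : Set (GL (Fin n) F), IsCompact D →
      {γ : G | γ ∈ Γ ∧ (toGL (ρ γ) : GL (Fin n) F) ∈ D}.Finite)
    {D : Set (GL (Fin n) F)} (hD : IsCompact D)
    (hcoc : ∀ s : SpecialLinearGroup (Fin n) F, ∃ γ ∈ Γ, (toGL (s * ρ γ) : GL (Fin n) F) ∈ D)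
    (hcomm : ∀ x : G, (Γ.comap (MulAut.conj x).toMonoidHom).relIndex Γ ≠ 0) :
    N.relIndex Γ ≠ 0 := by
  have hlc : LocallyCompactSpace (Matrix (Fin n) (Fin n) F) :=
    inferInstanceAs (LocallyCompactSpace (Fin n → Fin n → F))
  have hsc : SecondCountableTopology (Matrix (Fin n) (Fin n) F) :=
    inferInstanceAs (SecondCountableTopology (Fin n → Fin n → F))
  have h1 : LocallyCompactSpace (SpecialLinearGroup (Fin n) F) :=
    isClosedEmbedding_val.locallyCompactSpace
  have h2 : T2Space (SpecialLinearGroup (Fin n) F) := isClosedEmbedding_val.isEmbedding.t2Space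
  have h3 : SecondCountableTopology (SpecialLinearGroup (Fin n) F) :=
    isClosedEmbedding_val.isEmbedding.secondCountableTopology
  have hnt : Nontrivial (Fin n) := Fin.nontrivial_iff_two_le.mpr hn
  rw [← Subgroup.relIndex_map_map_of_injective N Γ hρ]
  refine hNST _ (Γ.map ρ) (N.map ρ) ⟨fun C hC => ?_, ?_, ?_, ?_⟩ ?_ ?_ fun χ _ => sl_char hn χ
  · refine ((hdisc _ (hC.image continuous_toGL)).image ρ).subset ?_
    rintro _ ⟨hs, γ, hγ, rfl⟩
    exact ⟨γ, ⟨hγ, _, hs, rfl⟩, rfl⟩
  · refine ⟨toGL ⁻¹' D⁻¹, isClosedEmbedding_toGL.isCompact_preimage hD.inv, fun s => ?_⟩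
    obtain ⟨γ, hγ, h⟩ := hcoc s⁻¹
    refine ⟨ρ γ, ⟨γ, hγ, rfl⟩, ?_⟩
    rw [Set.mem_preimage, Set.mem_inv, ← map_inv, _root_.mul_inv_rev, inv_inv]
    exact h
  · rintro _ ⟨γ, -, rfl⟩ _ ⟨x, hx, rfl⟩
    exact ⟨γ * x * γ⁻¹, Subgroup.Normal.conj_mem inferInstance x hx γ, by simp⟩
  · rintro _ ⟨x, -, rfl⟩ h
    apply hcomm x
    rw [← Subgroup.relIndex_map_map_of_injective _ Γ hρ]
    refine Subgroup.relIndex_eq_zero_of_le_left ?_ h
    rintro _ ⟨y, hy, rfl⟩
    exact ⟨x * y * x⁻¹, hy, by simp⟩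
  · have hnorm : (N.map ρ).topologicalClosure.Normal :=
      ⟨fun b hb e => conj_mem_closure ρ N (hd e) hb⟩
    obtain ⟨x, hx, hxc⟩ := hnc
    have h4 := sl_top hn (N.map ρ).topologicalClosure
      ⟨ρ x, Subgroup.le_topologicalClosure _ ⟨x, hx, rfl⟩, hxc⟩
    intro s
    have h5 : s ∈ (N.map ρ).topologicalClosure := by
      rw [h4]
      trivial
    exact h5
  · obtain ⟨c, hc1⟩ := NormedField.exists_one_lt_norm F
    have hc : c ≠ 0 := by
      rintro rfl
      rw [norm_zero] at hc1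
      linarith
    obtain ⟨K', hK', hKK'⟩ := H698.exists_compact_smallGen (ι := Fin n) hc
    refine ⟨toGL ⁻¹' K', isClosedEmbedding_toGL.isCompact_preimage hK', ?_⟩
    rw [eq_top_iff, ← H698.closure_smallGen hc1 hc]
    exact Subgroup.closure_mono fun s hs => hKK' s hs

end Vale.Agent.P011N.A2
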