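import Vale.Agent.P011N.A2.Fin
import Vale.Agent.P011N.A2.SLn

/-!
Finiteness for special unitary groups over function fields, from the normal subgroup theorem.
-/

open Module Matrix Topology Filter

set_option linter.unusedSectionVars false

namespace Vale.Agent.P011N.A2

open Vale.Agent.P011 Vale.Agent.P011.H738 Vale.Agent.P011.H271 Vale.Agent.P011.H698
  Vale.Agent.P011.H961 Vale.Agent.P011.H74 Vale.Agent.P011.H976

theorem mf_of_bij {G H : Type} [Group G] [Group H] (e : G →* H) (he : Function.Surjective e)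
    (h : MF G) : MF H := by
  intro N hN hnc
  rw [← Subgroup.index_comap_of_surjective N he]
  refine h _ (hN.comap e) fun hle => hnc fun x hx => ?_
  obtain ⟨x, rfl⟩ := he x
  rw [Subgroup.mem_center_iff]
  intro y
  obtain ⟨y, rfl⟩ := he y
  rw [← map_mul, ← map_mul, Subgroup.mem_center_iff.mp (hle hx) y]

variable {k K A Ω : Type} [Field k] [GFF k] [Field K] [StarRing K] [Ring A] [StarRing A]
  [Algebra k K] [Algebra k A] [Algebra K A] [IsScalarTower k K A] [StarModule K A] {n N : ℕ}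
  [Field Ω] [Algebra K Ω]

/-- The special unitary group is dense in the special linear group at a split place. -/
theorem dense_toSL (hA : Anis k K A n) (hn : 2 ≤ n) {q : Place k} {φ : K →ₐ[k] q.comp}
    {g : A →+* Matrix (Fin n) (Fin n) q.comp}
    (hφ : ∀ c : K, g (algebraMap K A c) = algebraMap q.comp _ (φ c))
    (f : A →ₐ[K] Matrix (Fin n) (Fin n) Ω) (hg : ∀ x : A, (f x).det = 1 → (g x).det = 1)
    (hnc : ∃ u : GA f, ∀ c : q.comp, g (((u : UA A) : Aˣ) : A) ≠ diagonal fun _ => c) :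
    DenseRange (toSL g hg) := by
  let _ := nnfPlace q
  let ι : UA A →* GL (Fin n) q.comp :=
    (Units.map (g : A →* Matrix (Fin n) (Fin n) q.comp)).comp (UA A).subtype
  have hd : DenseRange ι := H800.dense_gl hA (by omega) hφ
  intro s
  have h1 : (SpecialLinearGroup.toGL s : GL (Fin n) q.comp) ∈
      ((GA f).map ι).topologicalClosure := by
    refine H710.locN_gl hn _ le_top (fun e _ b hb => conj_mem_closure ι (GA f) (hd e) hb) ?_ _
      (Subgroup.mem_top _) s.2
    obtain ⟨u, hu⟩ := hnc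
    refine ⟨ι u, Subgroup.le_topologicalClosure _ ⟨u, u.2, rfl⟩, fun c hc => hu c ?_⟩
    rw [← smul_one_eq_diagonal]
    exact hc
  rw [SpecialLinearGroup.isInducing_toGL.closure_eq_preimage_closure_image, Set.mem_preimage]
  refine closure_mono ?_ h1
  rintro _ ⟨u, hu, rfl⟩
  exact ⟨toSL g hg ⟨u, hu⟩, ⟨_, rfl⟩, Units.ext rfl⟩

/-- The neighbourhoods of one for the levels have finite index in the group of an order. -/
theorem relIndex_order (hst : ∀ (c : k) (x : A), star (c • x) = c • star x) {q : Place k}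
    (f : A →ₐ[K] Matrix (Fin n) (Fin n) Ω) (B : Basis (Fin N) k A) {Lam : Subring A}
    (H : IsOrdR B (OSF {q}) Lam) (S : Subgroup (GA f))
    (hS : (S : Set (GA f)) ∈ Fc (GA f) (FLv f B {q})) : S.relIndex (GL' f Lam) ≠ 0 := by
  obtain ⟨T, hT, ε, hε, -, h⟩ := mem_FLv.mp ((map_mem (GA_mem _)).mp hS)
  obtain ⟨d, hd, hup⟩ := H.up
  obtain ⟨κ, _, cl, hcl⟩ := exists_class (B := B) hst (q := q) hT hε hd
  refine index_ne_zero_of_class
    (fun γ : GL' f Lam => cl ((((γ : GA f) : UA A) : Aˣ) : A)) _ fun x y hxy => ?_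
  have h1 := hcl _ _ (hup _ (mem_GL'.mp x.2).1) (hup _ (mem_GL'.mp y.2).1)
    (ua_star_mul _) hxy
  rw [← ua_inv] at h1
  have h2 := h _ ((x : GA f)⁻¹ * (y : GA f)).2 h1
  exact (Subgroup.mem_map_iff_mem (GA f).subtype_injective).mp h2

omit [GFF k] in
/-- **Finiteness over function fields.** -/
theorem mf_GA (hNST : NST) (hk : IsGlobalFunctionField k) (hA : Anis k K A n) (hn : 3 ≤ n)
    (f : A →ₐ[K] Matrix (Fin n) (Fin n) Ω) : MF (GA f) := by
  classical
  intro M hM hnc
  have hgff := gff_of_isGlobal hk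
  have hn0 : n ≠ 0 := by omega
  have hst := H519.star_smul_of_anis hA
  have hSL : StarLinR k A := ⟨hst⟩
  have hsim := hA.simple
  have hne : Nonempty (Fin n) := ⟨⟨0, by omega⟩⟩
  have hfd : FiniteDimensional k A :=
    FiniteDimensional.of_finrank_pos (by rw [H519.finrank_of_anis hA]; positivity)
  let B := Module.finBasis k A
  have hNZ : NeZero (finrank k A) := ⟨by rw [H519.finrank_of_anis hA]; positivity⟩
  obtain ⟨q, -, -, φ, g, hφ, hf, hspan⟩ := H519.exists_split_place hk hA hn0 ∅ 0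
  have hq : ({q} : Finset (Place k)).Nonempty := ⟨q, Finset.mem_singleton_self q⟩
  obtain ⟨d, -, hd⟩ := exists_denR B (OSF {q}) (OSF_den hq)
  obtain ⟨H, -⟩ := isOrdR_ordO B hd
  have hdet : ∀ x : A, (f x).det = 1 ↔ (g x).det = 1 := det_eq_one_iff hA hn0 _ hφ f
  have hginj : Function.Injective g := RingHom.injective g
  -- the group of the order is a neighbourhood of one
  have hΓ : (GL' f (ordO B (OSF {q})) : Set (GA f)) ∈ Fc (GA f) (FLv f B {q}) := by
    rw [mem_Fc (GA_mem _)]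
    obtain ⟨T, hT, ε, hε, hε1, hTL⟩ := order_mem (B := B) (q := q) H
    obtain ⟨ε', hε', hle, hle1, -, hstar⟩ :=
      mul_level (B := B) (S := ({q} : Set (Place k))) hst hT hε
    refine mem_FLv.mpr ⟨T, hT, ε', hε', hle1, fun u hu hu' => ⟨⟨u, hu⟩, ?_, rfl⟩⟩
    exact mem_GL'.mpr ⟨hTL _ (lv_mono (Finset.Subset.refl T) hT hle hle1 hu'),
      hTL _ (hstar _ hu')⟩
  have hlev := lev_Fc (G := GA f) (lev_FLv (f := f) (B := B) hst {q})
  -- an element which is not scalar
  obtain ⟨u, huM, hu⟩ : ∃ u ∈ M, ∀ c : q.comp,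
      g (((u : UA A) : Aˣ) : A) ≠ diagonal fun _ => c := by
    by_contra hcon
    push Not at hcon
    refine hnc fun u hu => ?_
    obtain ⟨c, hc⟩ := hcon u hu
    rw [Subgroup.mem_center_iff]
    intro y
    apply Subtype.ext
    apply Subtype.ext
    apply Units.ext
    apply hginj
    change g ((((y : UA A) : Aˣ) : A) * (((u : UA A) : Aˣ) : A)) =
      g ((((u : UA A) : Aˣ) : A) * (((y : UA A) : Aˣ) : A))
    rw [map_mul, map_mul, hc, ← smul_one_eq_diagonal, mul_smul_comm, smul_mul_assoc, mul_one,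
      one_mul]
  obtain ⟨D, hD, hcoc⟩ := one_SL hA hn0 hφ hspan B H fun c hc => smul_one_mem_ordO B hc
  have hi : M.relIndex (GL' f (ordO B (OSF {q}))) ≠ 0 := by
    let _ := nnfPlace q
    refine nst_sl hNST (by omega) (toSL g fun x => (hdet x).mp) ?_
      (dense_toSL hA (by omega) hφ f _ ⟨u, hu⟩) _ M ⟨u, huM, hu⟩ (fun D' hD' => ?_) hD
      (fun s => ?_) fun x => relIndex_order hst f B H _ (hlev.conj x _ hΓ)
    · intro x y hxy
      apply Subtype.ext
      apply Subtype.ext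
      apply Units.ext
      exact hginj (congrArg Subtype.val hxy)
    · have h1 := one_GL_disc hA hf hspan B H D' hD'
      refine Set.Finite.of_finite_image (f := fun γ : GA f => ((γ : UA A) : Aˣ))
        ((h1.image (fun γ : UL (ordO B (OSF {q})) => (γ : Aˣ))).subset ?_) ?_
      · rintro _ ⟨γ, ⟨hγ, hγD⟩, rfl⟩
        have h2 := toSL_GL g (fun x => (hdet x).mp) γ
        refine ⟨⟨((γ : UA A) : Aˣ), hγ⟩, ?_, rfl⟩
        rw [Set.mem_ofPred_eq, ← h2]
        exact hγD
      · intro γ _ γ' _ h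
        exact Subtype.ext (Subtype.ext h)
    · obtain ⟨γ, hγ, hs⟩ := hcoc (s : GL (Fin n) q.comp) s.2
      have hγU : (γ : Aˣ) ∈ UA A := γ.2.2.2
      have hγG : (⟨(γ : Aˣ), hγU⟩ : UA A) ∈ GA f := mem_GA.mpr ((hdet _).mpr hγ)
      refine ⟨⟨⟨(γ : Aˣ), hγU⟩, hγG⟩, γ.2, ?_⟩
      have h2 := toSL_GL g (fun x => (hdet x).mp) ⟨⟨(γ : Aˣ), hγU⟩, hγG⟩
      rw [← h2] at hs
      rw [map_mul]
      exact hs
  obtain ⟨S, hSn, hMS, hSF, hSi⟩ := exists_hull _ hlev.conj M _ hΓ hi
  have h1 := index_of_level hk hA hn hφ hspan f B S ((map_mem (GA_mem _)).mp hSF)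
  rw [← Subgroup.relIndex_mul_index hMS]
  exact mul_ne_zero hSi h1

omit [GFF k] [StarRing K] [StarModule K A] [Field k] [Algebra k K] [Algebra k A]
  [IsScalarTower k K A] in
/-- The two forms of the special unitary group. -/
theorem exists_onto (f : A →ₐ[K] Matrix (Fin n) (Fin n) Ω) :
    ∃ e : GA f →* H925.Full.GK f, Function.Surjective e := by
  refine ⟨{ toFun := fun u => ⟨⟨(((u : UA A) : Aˣ) : A), ua_star_mul _, ua_mul_star _⟩,
              mem_GA.mp u.2⟩
            map_one' := rfl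
            map_mul' := fun _ _ => rfl }, ?_⟩
  rintro ⟨⟨x, h1, h2⟩, hx⟩
  exact ⟨⟨⟨⟨x, star x, h2, h1⟩, h2⟩, mem_GA.mpr hx⟩, rfl⟩

/-- **Block A2.** -/
theorem mfff (hNST : NST) : MFFF := by
  intro k K A Ω _ _ _ _ _ _ _ _ _ _ _ _ n f hk hA
  obtain ⟨e, he⟩ := exists_onto f
  exact mf_of_bij e he (mf_GA hNST hk
    ⟨hA.fixed, hA.star_ne, hA.central, hA.simple, hA.rank, hA.aniso⟩ hA.le f)

end Vale.Agent.P011N.A2
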