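import Vale.Agent.P011N.A2.Abs
import Vale.Agent.P011N.A2.Dec
import Vale.Agent.P011.H961.SA

/-!
Strong approximation for the subgroups which are normal in the special unitary group only.
-/

open Module Matrix Topology Filter

set_option linter.unusedSectionVars false

namespace Vale.Agent.P011N.A2

open Vale.Agent.P011 Vale.Agent.P011.H738 Vale.Agent.P011.H271 Vale.Agent.P011.H698
  Vale.Agent.P011.H961 Vale.Agent.P011.H777

variable {k K A Ω : Type} [Field k] [GFF k] [Field K] [StarRing K] [Ring A] [StarRing A]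
  [Algebra k K] [Algebra k A] [Algebra K A] [IsScalarTower k K A] [StarModule K A] {n N : ℕ}
  [Field Ω] [Algebra K Ω] {f : A →ₐ[K] Matrix (Fin n) (Fin n) Ω} {B : Basis (Fin N) k A}

section one

variable {v : Place k} {L : Type} [NontriviallyNormedField L]
  {E : Subgroup (Matrix (Fin n) (Fin n) L)ˣ} {g : A →+* Matrix (Fin n) (Fin n) L}

/-- The map to the local group is continuous at one. -/
theorem iota_cont (h : LM f B v E g) (hst : ∀ (c : k) (x : A), star (c • x) = c • star x)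
    {O : Set E} (hO : O ∈ 𝓝 (1 : E)) : h.iota ⁻¹' O ∈ nrF B (MonoidHom.id (UA A)) v := by
  obtain ⟨O', hO', hOO'⟩ := (mem_nhds_subtype _ _ _).mp hO
  obtain ⟨δ, hδ, hball⟩ := exists_ball_units hO'
  obtain ⟨ε, hε, hn⟩ := h.near hst hδ
  refine ⟨ε, hε, fun u hu => hOO' (hball _ (hn _ hu).1 ?_)⟩
  rw [h.iota_inv]
  exact (hn _ hu).2

variable [ProperSpace L] [IsUltrametricDist L]

/-- **Approximation at one place.** -/
theorem approx (h : LM f B v E g) (hA : Anis k K A n) (hn : n ≠ 0)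
    (hst : ∀ (c : k) (x : A), star (c • x) = c • star x) {q : Place k} (hvq : v ≠ q)
    (hnc : ∀ (T : Finset (Place k)), Big B T → ∀ ε : ℝ, 0 < ε → ∃ u : UA A, u ∈ GA f ∧
      ((u : Aˣ) : A) ∈ Lv B {q} T ε ∧ ∃ x : A, ((u : Aˣ) : A) * x ≠ x * ((u : Aˣ) : A))
    (M : Subgroup (UA A)) (hMn : ∀ γ ∈ GA f, ∀ x ∈ M, γ * x * γ⁻¹ ∈ M)
    (hM : (M : Set (UA A)) ∈ FLv f B {q})
    (T : Finset (Place k)) (hqT : q ∉ T) (hvT : v ∉ T) (W : Place k → Set (UA A))
    (hW : ∀ w, W w ∈ nrF B (MonoidHom.id (UA A)) w) (x : UA A) (hx : x ∈ GA f)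
    (O : Set (UA A)) (hO : O ∈ nrF B (MonoidHom.id (UA A)) v) :
    ∃ ν ∈ M, (levF B (MonoidHom.id (UA A)) hst).Of T W Set.univ {q, v} ν ∧ x * ν ∈ O := by
  classical
  let Lf := levF B (MonoidHom.id (UA A)) hst
  let _ : TopologicalSpace (UA A) := (Lf.basis {q, v}).topology
  have : IsTopologicalGroup (UA A) := (Lf.basis {q, v}).isTopologicalGroup
  have hbas : ∀ U : Set (UA A), U ∈ 𝓝 (1 : UA A) ↔ ∃ V ∈ Lf.sets {q, v}, V ⊆ U := fun U =>
    (Lf.basis {q, v}).nhds_one_hasBasis.mem_iff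
  have hof : ∀ (T : Finset (Place k)), q ∉ T → v ∉ T → ∀ W : Place k → Set (UA A),
      (∀ w, W w ∈ nrF B (MonoidHom.id (UA A)) w) →
      {x : UA A | Lf.Of T W Set.univ {q, v} x} ∈ 𝓝 (1 : UA A) := by
    intro T hqT hvT W hW
    rw [hbas]
    refine ⟨_, ⟨T, fun w hw => ?_, W, hW, Set.univ, univ_mem, rfl⟩, Set.Subset.rfl⟩
    simp only [Set.mem_insert_iff, Set.mem_singleton_iff, not_or]
    exact ⟨fun h => hqT (h ▸ hw), fun h => hvT (h ▸ hw)⟩
  have hd : DenseRange h.iota := by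
    intro e
    rw [h.closure_range]
    trivial
  -- strong approximation for the special unitary group
  have hG : ∀ y ∈ GA f, h.iota y ∈ locClosure h.iota (GA f) := by
    intro y hy
    rw [mem_locClosure]
    intro O hO U hU
    obtain ⟨_, ⟨T, hT, W, hW, Woo, hWoo, rfl⟩, hsub⟩ := (hbas U).mp hU
    have hq : q ∉ T := fun h => hT q h (by simp)
    have hv : v ∉ T := fun h => hT v h (by simp)
    have hWoo' : Woo = Set.univ := mem_top.mp hWoo
    subst hWoo'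
    have h1 : (fun e : E => h.iota y * e) ⁻¹' O ∈ 𝓝 (1 : E) := by
      apply (by fun_prop : Continuous fun e : E => h.iota y * e).continuousAt
      simpa using hO
    obtain ⟨ν, hν, h2, h3⟩ := h.approx hA hst hvq hnc (GA f) (GA_mem {q}) T hq hv W hW y⁻¹
      ((GA f).inv_mem hy) _ (iota_cont h hst h1)
    refine ⟨ν, hν, hsub h2, ?_⟩
    simpa using h3
  obtain ⟨T0, hT0, ε0, hε0, hε01, hM0⟩ := mem_FLv.mp hM
  obtain ⟨O₀, hO₀, hO₀'⟩ := h.app_nhds _ (ball_mem B (MonoidHom.id (UA A)) v hε0)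
  have hW₀ := hof ((T0.erase q).erase v) (by simp) (by simp) _
    (fun w => ball_mem B (MonoidHom.id (UA A)) w hε0)
  obtain ⟨R, hR⟩ := exists_dec hA hn f B {v}
  obtain ⟨R', -, hR'⟩ := h.ub hst R
  obtain ⟨O₁, hO₁, hcore⟩ := core_loc h.iota hd (GA f) M hG hO₀ hW₀ (by
      rintro y hy ⟨h1, -, h3⟩ h2
      have h4 : Sm B v ε0 (((y : Aˣ) : A) - 1) := hO₀' h2
      refine hM0 y hy ⟨fun w hw hwq => ?_, fun w hw hwq => ?_⟩
      · by_cases hwv : w = v
        · rw [hwv]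
          exact h4
        · exact h1 w (Finset.mem_erase.mpr ⟨hwv, Finset.mem_erase.mpr ⟨hwq, hw⟩⟩)
      · by_cases hwv : w = v
        · have hgd := hT0 w hw
          rw [hwv] at hgd ⊢
          exact hgd.of_near (h4.mono hε01).bd
        · have h5 := h3 w (fun h => hw (Finset.mem_of_mem_erase (Finset.mem_of_mem_erase h)))
            (by
              simp only [Set.mem_insert_iff, Set.mem_singleton_iff, not_or]
              exact ⟨hwq, hwv⟩)
          exact (mem_kintF B (MonoidHom.id (UA A)) (hst := hst) (hT0 w hw)).mp h5)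
    (h.compact R') (fun u => by
      obtain ⟨z, γ, c, hz, hγ, hc, rfl⟩ := hR u
      refine ⟨z * γ, c, fun y hy => ?_, hR' c (hc v (Finset.mem_singleton_self v)), rfl⟩
      have e : z * γ * y * (z * γ)⁻¹ = z * (γ * y * γ⁻¹) * z⁻¹ := by group
      rw [e, hz]
      exact hMn γ hγ y hy)
  obtain ⟨y, hy, hyz, hyO, -⟩ := h.app_inf hst hvq hnc (GA_mem {q}) ∅ (Finset.notMem_empty q)
    (fun _ => Set.univ) (fun _ => univ_mem) O₁ hO₁
  have htg := h.app_loc (locClosure h.iota M).normalCore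
    (fun e _ b hb => Subgroup.Normal.conj_mem inferInstance b hb e)
    ⟨h.iota y, hcore y hy hyO, h.ncE_of hyz⟩
  have hxt : (h.iota x)⁻¹ ∈ tgE E := by
    change (((h.iota x)⁻¹ : E) : (Matrix (Fin n) (Fin n) L)ˣ).val.det = 1
    rw [← map_inv, h.iota_val]
    exact h.det _ (mem_GA.mp ((GA f).inv_mem hx))
  have hxl : (h.iota x)⁻¹ ∈ locClosure h.iota M := Subgroup.normalCore_le _ (htg hxt)
  obtain ⟨O', hO', hO'O⟩ := h.app_nhds O hO
  have h1 : (fun e : E => h.iota x * e) ⁻¹' O' ∈ 𝓝 (h.iota x)⁻¹ := by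
    apply (by fun_prop : Continuous fun e : E => h.iota x * e).continuousAt
    simpa using hO'
  obtain ⟨ν, hν, hνW, hνO⟩ := mem_locClosure.mp hxl _ h1 _ (hof T hqT hvT W hW)
  refine ⟨ν, hν, hνW, hO'O ?_⟩
  simpa using hνO

end one

/-- One pole is removed. -/
theorem remove_pole (hA : Anis k K A n) (hn : n ≠ 0)
    (hst : ∀ (c : k) (x : A), star (c • x) = c • star x) {q v : Place k} (hvq : v ≠ q)
    (hmod : ∃ (L : Type) (_ : NontriviallyNormedField L) (_ : ProperSpace L)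
      (_ : IsUltrametricDist L) (E : Subgroup (Matrix (Fin n) (Fin n) L)ˣ)
      (g : A →+* Matrix (Fin n) (Fin n) L), LM f B v E g)
    (hnc : ∀ (T : Finset (Place k)), Big B T → ∀ ε : ℝ, 0 < ε → ∃ u : UA A, u ∈ GA f ∧
      ((u : Aˣ) : A) ∈ Lv B {q} T ε ∧ ∃ x : A, ((u : Aˣ) : A) * x ≠ x * ((u : Aˣ) : A))
    (M : Subgroup (UA A)) (hMn : ∀ γ ∈ GA f, ∀ x ∈ M, γ * x * γ⁻¹ ∈ M) (hMG : M ≤ GA f)
    (hM : (M : Set (UA A)) ∈ FLv f B {q})
    (T : Finset (Place k)) (hqT : q ∉ T) (hvT : v ∉ T) (W : Place k → Set (GA f))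
    (hW : ∀ w, W w ∈ nrF B (GA f).subtype w) (x : GA f) :
    ∃ ν : GA f, (ν : UA A) ∈ M ∧ (∀ w ∈ T, ν ∈ W w) ∧
      (∀ w ∉ T, w ∉ ({q, v} : Set (Place k)) → ν ∈ kintF B (GA f).subtype hst w) ∧
      x * ν ∈ kintF B (GA f).subtype hst v := by
  obtain ⟨L, _, _, _, E, g, h⟩ := hmod
  choose eW heW hW' using hW
  obtain ⟨ν, hνM, ⟨h1, -, h3⟩, h4⟩ := approx h hA hn hst hvq hnc M hMn hM T hqT hvT
    (fun w => {u | Sm B w (eW w) (el (MonoidHom.id (UA A)) u - 1)})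
    (fun w => ball_mem B _ w (heW w)) (x : UA A) x.2
    (kintF B (MonoidHom.id (UA A)) hst v : Subgroup (UA A))
    ((levF B (MonoidHom.id (UA A)) hst).int_nr v)
  refine ⟨⟨ν, hMG hνM⟩, hνM, fun w hw => hW' w _ (h1 w hw), fun w hw hw' => ?_, ?_⟩
  · rw [kintF_iff]
    exact h3 w hw hw'
  · rw [kintF_iff]
    exact h4

/-- **Strong approximation for the normal subgroups of the special unitary group.** -/
theorem sa_su (hk : IsGlobalFunctionField k) (hA : Anis k K A n) (hn : 3 ≤ n) {q : Place k}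
    {φ : K →ₐ[k] q.comp} {g : A →+* Matrix (Fin n) (Fin n) q.comp}
    (hφ : ∀ c : K, g (algebraMap K A c) = algebraMap q.comp _ (φ c))
    (hspan : Submodule.span q.comp (Set.range fun x : A => (g x, (g (star x)).transpose)) = ⊤)
    (f : A →ₐ[K] Matrix (Fin n) (Fin n) Ω) (B : Basis (Fin N) k A)
    (M : Subgroup (GA f)) [M.Normal]
    (hM : ((M.map (GA f).subtype : Subgroup (UA A)) : Set (UA A)) ∈ FLv f B {q}) :
    ∃ T : Finset (Place k), ∃ ε : ℝ, 0 < ε ∧ ∀ u : GA f,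
      (∀ v ∈ T, Sm B v ε (((u : UA A) : Aˣ) - 1 : A)) → u ∈ M := by
  classical
  have hst := H519.star_smul_of_anis hA
  have hMG : M.map (GA f).subtype ≤ GA f := Subgroup.map_subtype_le M
  have hmem : ∀ y : GA f, (y : UA A) ∈ M.map (GA f).subtype ↔ y ∈ M := fun y =>
    Subgroup.mem_map_iff_mem (GA f).subtype_injective
  have hMn : ∀ γ ∈ GA f, ∀ x ∈ M.map (GA f).subtype, γ * x * γ⁻¹ ∈ M.map (GA f).subtype := by
    rintro γ hγ _ ⟨x, hx, rfl⟩
    exact ⟨(⟨γ, hγ⟩ : GA f) * x * (⟨γ, hγ⟩ : GA f)⁻¹,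
      Subgroup.Normal.conj_mem inferInstance x hx _, rfl⟩
  obtain ⟨Tm, hTm⟩ := exists_models hk hA hn f B
  obtain ⟨T0, hT0, ε0, hε0, hε01, hM0⟩ := mem_FLv.mp hM
  have hnc : ∀ (T : Finset (Place k)), Big B T → ∀ ε : ℝ, 0 < ε → ∃ u : UA A, u ∈ GA f ∧
      ((u : Aˣ) : A) ∈ Lv B {q} T ε ∧ ∃ x : A, ((u : Aˣ) : A) * x ≠ x * ((u : Aˣ) : A) :=
    fun T hT ε hε => exists_noncentral hA (by omega) hφ hspan f B hT hε
  obtain ⟨T1, hT1d⟩ : ∃ T1, T1 = (Tm ∪ T0).erase q := ⟨_, rfl⟩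
  have hqT1 : q ∉ T1 := by
    rw [hT1d]
    exact Finset.notMem_erase _ _
  have hmT1 : ∀ v, v ≠ q → v ∉ T1 → v ∉ Tm ∧ v ∉ T0 := by
    intro v hvq hv
    rw [hT1d, Finset.mem_erase, not_and, Finset.mem_union, not_or] at hv
    exact hv hvq
  have hT0T1 : ∀ v ∈ T0, v ≠ q → v ∈ T1 := by
    intro v hv hvq
    rw [hT1d]
    exact Finset.mem_erase.mpr ⟨hvq, Finset.mem_union_right _ hv⟩
  let Lf := levF B (GA f).subtype hst
  have hball : ∀ w, {x : GA f | Sm B w ε0 (el (GA f).subtype x - 1)} ∈ Lf.Nr w := fun w =>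
    ball_mem B _ w hε0
  choose W hW hmul using fun w => Lf.mul_nr w _ (hball w)
  have hW' : ∀ w, ∃ e : ℝ, 0 < e ∧ ∀ x, Sm B w e (el (GA f).subtype x - 1) → x ∈ W w := hW
  choose e he heW using hW'
  obtain ⟨m, hm, hmT⟩ : ∃ m : ℝ, 0 < m ∧ ∀ w ∈ T1, m ≤ e w := by
    clear hqT1 hmT1 hT0T1 hT1d
    induction T1 using Finset.induction_on with
    | empty => exact ⟨1, one_pos, by simp⟩
    | insert a s _ ih =>
      obtain ⟨m, hm, hm'⟩ := ih
      refine ⟨min (e a) m, lt_min (he a) hm, fun i hi => ?_⟩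
      rcases Finset.mem_insert.mp hi with rfl | hi
      · exact min_le_left _ _
      · exact (min_le_right _ _).trans (hm' i hi)
  refine ⟨T1, m, hm, fun x hnear => ?_⟩
  obtain ⟨μ, hμc, hμ1, -, hμ3⟩ := Lf.exists_fix (QuotientGroup.mk' M) q T1
    (by
      intro v hv hvq y W1 hW1 Woo hWoo
      obtain ⟨ν, hνM, h1, h2, h3⟩ := remove_pole hA (by omega) hst hvq (hTm v (hmT1 v hvq hv).1)
        hnc _ hMn hMG hM T1 hqT1 hv W1 hW1 y
      have hWoo' : Woo = Set.univ := mem_top.mp hWoo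
      refine ⟨ν, ?_, ⟨h1, by rw [hWoo']; trivial, fun w hw hw' => ?_⟩, h3⟩
      · rw [QuotientGroup.mk'_apply, QuotientGroup.eq_one_iff]
        exact (hmem ν).mp hνM
      · exact h2 w hw hw')
    _ x le_rfl W hW Set.univ univ_mem
  rw [QuotientGroup.mk'_apply, QuotientGroup.eq_one_iff] at hμc
  have hprod : ∀ w ∈ T1, Sm B w ε0 (el (GA f).subtype (x * μ) - 1) := fun w hw =>
    hmul w x (heW w x ((hnear w hw).mono (hmT w hw))) μ (hμ1 w hw)
  have hlv : el (GA f).subtype (x * μ) ∈ Lv B {q} T0 ε0 := by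
    refine ⟨fun w hw hwq => hprod w (hT0T1 w hw hwq), fun w hw hwq => ?_⟩
    have hgd := hT0 w hw
    by_cases hw1 : w ∈ T1
    · exact hgd.of_near ((hprod w hw1).mono hε01).bd
    · exact (mem_kintF B (GA f).subtype (hst := hst) hgd).mp (hμ3 w hw1 hwq)
  have h5 : x * μ ∈ M := (hmem _).mp (hM0 _ (x * μ).2 hlv)
  exact (M.mul_mem_cancel_right hμc).mp h5

end Vale.Agent.P011N.A2
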